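import Vale.Agent.P246.Dis.H316.Spec3
import Vale.Agent.P246.T.YC

/-! # P246, disproof: attaching one 3-cell inside `X × WW 0 2` -/

namespace Vale.Agent.P246.Dis.H316

open Topology Metric Set Vale.Agent.P246.T

/-- an embedding of `ℝ^4` into `(ℝ^3)^2` -/
def io (v : Fin 4 → ℝ) : Fin 2 → Fin 3 → ℝ := ![![v 0, v 1, v 2], ![v 3, 0, 0]]

theorem continuous_io : Continuous io := by
  unfold io
  refine continuous_pi fun i => continuous_pi fun j => ?_
  fin_cases i <;> fin_cases j <;> simp <;> fun_prop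

theorem io_zero : io 0 = 0 := by
  funext i j
  fin_cases i <;> fin_cases j <;> rfl

theorem io_inj {v w : Fin 4 → ℝ} (h : io v = io w) : v = w := by
  have h0 : v 0 = w 0 := congrFun (congrFun h 0) 0
  have h1 : v 1 = w 1 := congrFun (congrFun h 0) 1
  have h2 : v 2 = w 2 := congrFun (congrFun h 0) 2
  have h3 : v 3 = w 3 := congrFun (congrFun h 1) 0
  funext i
  fin_cases i
  · exact h0
  · exact h1
  · exact h2
  · exact h3

section

variable {G X E : Type} [Group G] [TopologicalSpace X]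
  [TopologicalSpace E] [MulAction G E] [ContinuousConstSMul G E] {p : C(E, X)}
  {Pr : FinPresentation G}

/-- the inclusion `E → E × WW` -/
def j0 (G E : Type) [TopologicalSpace E] : C(E, EW G E 0 2) :=
  ⟨fun y => ((y, 0) : E × WW 0 2), (by fun_prop : Continuous fun y : E => ((y, 0) : E × WW 0 2))⟩

theorem j0_smul (g : G) (y : E) : j0 G E (g • y) = g • j0 G E y := rfl

theorem pW_j0 (y : E) : pW G 0 2 p (j0 G E y) = ((p y, 0) : X × WW 0 2) := rfl

/-- the copy of the presentation complex in `X × {0}` -/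
def cp (c : PresCx Pr p) : PresCx Pr (pW G 0 2 p) where
  e := j0 G E c.e
  a i := (c.a i).map (j0 G E).continuous
  b j := (j0 G E).comp (c.b j)
  bdry j := by
    intro z hz
    obtain ⟨h1, h2⟩ := c.bdry j z hz
    refine ⟨fun h => ?_, fun h => ?_⟩
    · rw [ContinuousMap.comp_apply, h1 h]
      exact (YC.wpath_nat (j0 G E) (fun g y => j0_smul g y) Pr.x c.a _ rfl
        (fun _ _ => rfl) _ _).symm
    · rw [ContinuousMap.comp_apply, h2 h]

theorem cp_edge (c : PresCx Pr p) (i : Fin Pr.gens) (z : Dk 1) :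
    pW G 0 2 p ((cp c).edge i z) = ((p (c.edge i z), 0) : X × WW 0 2) := rfl

theorem cp_b (c : PresCx Pr p) (i : Fin Pr.rels) (z : Dk 2) :
    pW G 0 2 p ((cp c).b i z) = ((p (c.b i z), 0) : X × WW 0 2) := rfl

theorem cp_Y1 (c : PresCx Pr p) (k : ℕ) (y : X × WW 0 2) :
    y ∈ (cp c).Y1 k ↔ y.1 ∈ c.Y1 k ∧ y.2 = 0 := by
  constructor
  · rintro (h | h)
    · rw [mem_singleton_iff.1 h]
      exact ⟨Or.inl rfl, rfl⟩
    · simp only [mem_iUnion] at h
      obtain ⟨i, hi, z, rfl⟩ := h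
      refine ⟨Or.inr ?_, rfl⟩
      simp only [mem_iUnion]
      exact ⟨i, hi, z, rfl⟩
  · rintro ⟨h | h, h0⟩
    · left
      exact mem_singleton_iff.2 (Prod.ext h h0)
    · right
      simp only [mem_iUnion] at h ⊢
      obtain ⟨i, hi, z, hz⟩ := h
      exact ⟨i, hi, z, Prod.ext hz h0.symm⟩

theorem cp_Y2 (c : PresCx Pr p) (k : ℕ) (y : X × WW 0 2) :
    y ∈ (cp c).Y2 k ↔ y.1 ∈ c.Y2 k ∧ y.2 = 0 := by
  constructor
  · rintro (h | h)
    · rw [cp_Y1] at h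
      exact ⟨Or.inl h.1, h.2⟩
    · simp only [mem_iUnion] at h
      obtain ⟨i, hi, z, rfl⟩ := h
      refine ⟨Or.inr ?_, rfl⟩
      simp only [mem_iUnion]
      exact ⟨i, hi, z, rfl⟩
  · rintro ⟨h | h, h0⟩
    · left
      rw [cp_Y1]
      exact ⟨h, h0⟩
    · right
      simp only [mem_iUnion] at h ⊢
      obtain ⟨i, hi, z, hz⟩ := h
      exact ⟨i, hi, z, Prod.ext hz h0.symm⟩

theorem cp_Y (c : PresCx Pr p) (y : X × WW 0 2) : y ∈ (cp c).Y ↔ y.1 ∈ c.Y ∧ y.2 = 0 :=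
  cp_Y2 c _ y

/-- attaching maps in `X × {0}` -/
theorem att_cp {n : ℕ} {A B : Set X} {A' B' : Set (X × WW 0 2)} {Φ : C(Dk n, X)}
    {Φ' : C(Dk n, X × WW 0 2)} (h : Attach n A B Φ) (hA : ∀ y, y ∈ A' ↔ y.1 ∈ A ∧ y.2 = 0)
    (hB : ∀ y, y ∈ B' ↔ y.1 ∈ B ∧ y.2 = 0) (hΦ : ∀ z, Φ' z = (Φ z, 0)) :
    Attach n A' B' Φ' where
  bdry x hx := by
    rw [hA, hΦ]
    exact ⟨h.bdry x hx, rfl⟩
  int x hx hm := by
    rw [hA, hΦ] at hm
    exact h.int x hx hm.1
  inj x y hx hy he := by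
    rw [hΦ, hΦ] at he
    exact h.inj x y hx hy (congrArg Prod.fst he)
  eq := by
    ext y
    rw [hB, h.eq]
    constructor
    · rintro ⟨hy | ⟨z, hz⟩, h0⟩
      · exact Or.inl ((hA y).2 ⟨hy, h0⟩)
      · exact Or.inr ⟨z, by rw [hΦ, hz]; exact Prod.ext rfl h0.symm⟩
    · rintro (hy | ⟨z, rfl⟩)
      · rw [hA] at hy
        exact ⟨Or.inl hy.1, hy.2⟩
      · rw [hΦ]
        exact ⟨Or.inr ⟨z, rfl⟩, rfl⟩

theorem cp_good (c : PresCx Pr p) (hc : c.Good) : (cp c).Good where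
  att1 i := att_cp (hc.att1 i) (cp_Y1 c _) (cp_Y1 c _) fun _ => rfl
  att2 i := att_cp (hc.att2 i) (cp_Y2 c _) (cp_Y2 c _) fun _ => rfl

/-- the 3-cell -/
noncomputable def psi (G : Type) {E : Type} [TopologicalSpace E] (δ : C(Dk 3, E)) :
    C(Dk 3, EW G E 0 2) where
  toFun z := ((δ z, (0, io (YC.kap (z : Fin 3 → ℝ)))) : E × WW 0 2)
  continuous_toFun := δ.continuous.prodMk (Continuous.prodMk continuous_const
    (continuous_io.comp ((YC.continuous_kap 3).comp continuous_subtype_val)))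

theorem psi_apply (δ : C(Dk 3, E)) (z : Dk 3) :
    psi G δ z = ((δ z, (0, io (YC.kap (z : Fin 3 → ℝ)))) : E × WW 0 2) := rfl

theorem psi_bdry (δ : C(Dk 3, E)) (z : Dk 3) (hz : ‖(z : Fin 3 → ℝ)‖ = 1) :
    psi G δ z = ((δ z, 0) : E × WW 0 2) := by
  rw [psi_apply, YC.kap_zero hz, io_zero]
  rfl

theorem att3 (c : PresCx Pr p) (δ : C(Dk 3, E))
    (hδ : ∀ z : Dk 3, ‖(z : Fin 3 → ℝ)‖ = 1 → p (δ z) ∈ c.Y) :
    Attach 3 (cp c).Y ((cp c).Y ∪ range ((pW G 0 2 p).comp (psi G δ)))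
      ((pW G 0 2 p).comp (psi G δ)) where
  bdry z hz := by
    rw [ContinuousMap.comp_apply, psi_bdry δ z hz, cp_Y]
    exact ⟨hδ z hz, rfl⟩
  int z hz hm := by
    rw [ContinuousMap.comp_apply, cp_Y] at hm
    have h1 : ((0, io (YC.kap (z : Fin 3 → ℝ))) : WW 0 2) = 0 := hm.2
    have h2 : io (YC.kap (z : Fin 3 → ℝ)) = io 0 := by
      rw [io_zero]
      exact congrArg Prod.snd h1
    exact YC.kap_ne hz (io_inj h2)
  inj z z' hz hz' he := by
    have h1 : ((0, io (YC.kap (z : Fin 3 → ℝ))) : WW 0 2) =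
        (0, io (YC.kap (z' : Fin 3 → ℝ))) := congrArg (fun y : X × WW 0 2 => y.2) he
    have h2 : io (YC.kap (z : Fin 3 → ℝ)) = io (YC.kap (z' : Fin 3 → ℝ)) :=
      congrArg Prod.snd h1
    exact Subtype.ext (YC.kap_inj hz (io_inj h2))
  eq := rfl

end

/-- D1 -/
theorem d1 : SpecD1 := by
  intro G X E _ _ _ _ _ p Pr c hc δ hδ
  exact ⟨cp c, psi G δ, cp_good c hc, rfl, fun _ _ => rfl, fun _ _ => rfl, fun _ => rfl,
    psi_bdry δ, att3 c δ hδ⟩

end Vale.Agent.P246.Dis.H316
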