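import Vale.Agent.P246.Dis.H316.Spec3
import Vale.Agent.P246.T.CY
import Vale.Agent.P246.T.YP.PC

/-! # P246, disproof: the CW structure of a presentation complex with one 3-cell -/

namespace Vale.Agent.P246.Dis.H316

open Topology Metric Set Vale.Agent.P246.T

section

variable {G : Type} [Group G] {Pr : FinPresentation G} {X E : Type} [TopologicalSpace X]
    [TopologicalSpace E] [MulAction G E] [ContinuousConstSMul G E] {p : C(E, X)}

/-- the cells -/
def cel (Pr : FinPresentation G) : ℕ → Type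
  | 0 => Fin 1
  | 1 => Fin Pr.gens
  | 2 => Fin Pr.rels
  | 3 => Fin 1
  | _ + 4 => Empty

/-- the characteristic maps -/
noncomputable def chr (c : PresCx Pr p) (Φ : C(Dk 3, X)) : ∀ n, cel Pr n → C(Dk n, X)
  | 0, _ => ContinuousMap.const _ (p c.e)
  | 1, i => p.comp (c.edge i)
  | 2, j => p.comp (c.b j)
  | 3, _ => Φ
  | _ + 4, i => i.elim

/-- the part before the cell -/
def low (c : PresCx Pr p) : ∀ n, cel Pr n → Set X
  | 0, _ => ∅
  | 1, i => c.Y1 (Fin.val i)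
  | 2, j => c.Y2 (Fin.val j)
  | 3, _ => c.Y
  | _ + 4, i => i.elim

/-- the part up to the cell -/
def hig (c : PresCx Pr p) (B : Set X) : ∀ n, cel Pr n → Set X
  | 0, _ => {p c.e}
  | 1, i => c.Y1 (Fin.val i + 1)
  | 2, j => c.Y2 (Fin.val j + 1)
  | 3, _ => B
  | _ + 4, i => i.elim

/-- the position of the cell -/
def rnk (Pr : FinPresentation G) : ∀ n, cel Pr n → ℕ
  | 0, _ => 0
  | 1, i => Fin.val i + 1
  | 2, j => Fin.val j + (Pr.gens + 1)
  | 3, _ => Pr.rels + (Pr.gens + 1)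
  | _ + 4, i => i.elim

variable {B : Set X} {Φ : C(Dk 3, X)}

theorem att (c : PresCx Pr p) (hc : c.Good) (hΦ : Attach 3 c.Y B Φ) :
    ∀ n (i : cel Pr n), Attach n (low c n i) (hig c B n i) (chr c Φ n i)
  | 0, _ => CY.att0 c
  | 1, i => hc.att1 i
  | 2, j => hc.att2 j
  | 3, _ => hΦ
  | _ + 4, i => i.elim

theorem hig_Y (c : PresCx Pr p) (B : Set X) : ∀ n (i : cel Pr n), n ≤ 2 → hig c B n i ⊆ c.Y
  | 0, _, _ => (CY.Y1_zero c).symm.subset.trans (CY.Y1_Y2 c (Nat.zero_le _) _)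
  | 1, i, _ => CY.Y1_Y2 c (Fin.isLt i) _
  | 2, j, _ => CY.Y2_mono c (Fin.isLt j)
  | 3, _, h => absurd h (by norm_num)
  | _ + 4, i, _ => i.elim

theorem hig_low (c : PresCx Pr p) (B : Set X) : ∀ n (i : cel Pr n) m (j : cel Pr m),
    rnk Pr n i < rnk Pr m j → hig c B n i ⊆ low c m j
  | 0, _, 0, _, h => absurd h (lt_irrefl _)
  | 0, _, 1, j, _ => (CY.Y1_zero c).symm.subset.trans (CY.Y1_mono c (Nat.zero_le _))
  | 0, _, 2, j, _ => (CY.Y1_zero c).symm.subset.trans (CY.Y1_Y2 c (Nat.zero_le _) _)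
  | 0, i, 3, _, _ => hig_Y c B 0 i (by norm_num)
  | 1, _, 0, _, h => absurd h (Nat.not_lt_zero _)
  | 1, i, 1, j, h => CY.Y1_mono c (by
      have h' : Fin.val i + 1 < Fin.val j + 1 := h
      omega)
  | 1, i, 2, j, _ => CY.Y1_Y2 c (Fin.isLt i) _
  | 1, i, 3, _, _ => hig_Y c B 1 i (by norm_num)
  | 2, _, 0, _, h => absurd h (Nat.not_lt_zero _)
  | 2, i, 1, j, h => by
      have h' : Fin.val i + (Pr.gens + 1) < Fin.val j + 1 := h
      have := Fin.isLt j
      omega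
  | 2, i, 2, j, h => CY.Y2_mono c (by
      have h' : Fin.val i + (Pr.gens + 1) < Fin.val j + (Pr.gens + 1) := h
      omega)
  | 2, i, 3, _, _ => hig_Y c B 2 i (by norm_num)
  | 3, _, 0, _, h => absurd h (Nat.not_lt_zero _)
  | 3, _, 1, j, h => by
      have h' : Pr.rels + (Pr.gens + 1) < Fin.val j + 1 := h
      have := Fin.isLt j
      omega
  | 3, _, 2, j, h => by
      have h' : Pr.rels + (Pr.gens + 1) < Fin.val j + (Pr.gens + 1) := h
      have := Fin.isLt j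
      omega
  | 3, _, 3, _, h => absurd h (lt_irrefl _)
  | _ + 4, i, _, _, _ => i.elim
  | 0, _, _ + 4, j, _ => j.elim
  | 1, _, _ + 4, j, _ => j.elim
  | 2, _, _ + 4, j, _ => j.elim
  | 3, _, _ + 4, j, _ => j.elim

theorem rnk_inj : ∀ n (i : cel Pr n) m (j : cel Pr m), rnk Pr n i = rnk Pr m j →
    (⟨n, i⟩ : Σ n, cel Pr n) = ⟨m, j⟩
  | 0, i, 0, j, _ => by
      have h2 : i = j := Subsingleton.elim (α := Fin 1) i j
      rw [h2]
  | 0, _, 1, j, h => by
      have h' : 0 = Fin.val j + 1 := h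
      omega
  | 0, _, 2, j, h => by
      have h' : 0 = Fin.val j + (Pr.gens + 1) := h
      omega
  | 0, _, 3, j, h => by
      have h' : 0 = Pr.rels + (Pr.gens + 1) := h
      omega
  | 1, i, 0, _, h => by
      have h' : Fin.val i + 1 = 0 := h
      omega
  | 1, i, 1, j, h => by
      have h' : Fin.val i + 1 = Fin.val j + 1 := h
      have h2 : i = j := Fin.ext (by omega)
      rw [h2]
  | 1, i, 2, j, h => by
      have h' : Fin.val i + 1 = Fin.val j + (Pr.gens + 1) := h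
      have := Fin.isLt i
      omega
  | 1, i, 3, j, h => by
      have h' : Fin.val i + 1 = Pr.rels + (Pr.gens + 1) := h
      have := Fin.isLt i
      omega
  | 2, i, 0, _, h => by
      have h' : Fin.val i + (Pr.gens + 1) = 0 := h
      omega
  | 2, i, 1, j, h => by
      have h' : Fin.val i + (Pr.gens + 1) = Fin.val j + 1 := h
      have := Fin.isLt j
      omega
  | 2, i, 2, j, h => by
      have h' : Fin.val i + (Pr.gens + 1) = Fin.val j + (Pr.gens + 1) := h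
      have h2 : i = j := Fin.ext (by omega)
      rw [h2]
  | 2, i, 3, j, h => by
      have h' : Fin.val i + (Pr.gens + 1) = Pr.rels + (Pr.gens + 1) := h
      have := Fin.isLt i
      omega
  | 3, _, 0, _, h => by
      have h' : Pr.rels + (Pr.gens + 1) = 0 := h
      omega
  | 3, _, 1, j, h => by
      have h' : Pr.rels + (Pr.gens + 1) = Fin.val j + 1 := h
      have := Fin.isLt j
      omega
  | 3, _, 2, j, h => by
      have h' : Pr.rels + (Pr.gens + 1) = Fin.val j + (Pr.gens + 1) := h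
      have := Fin.isLt j
      omega
  | 3, i, 3, j, _ => by
      have h2 : i = j := Subsingleton.elim (α := Fin 1) i j
      rw [h2]
  | _ + 4, i, _, _, _ => i.elim
  | 0, _, _ + 4, j, _ => j.elim
  | 1, _, _ + 4, j, _ => j.elim
  | 2, _, _ + 4, j, _ => j.elim
  | 3, _, _ + 4, j, _ => j.elim

theorem Y_sub {c : PresCx Pr p} (hΦ : Attach 3 c.Y B Φ) : c.Y ⊆ B := by
  rw [hΦ.eq]; exact subset_union_left

theorem hig_B (c : PresCx Pr p) (hΦ : Attach 3 c.Y B Φ) :
    ∀ n (i : cel Pr n), hig c B n i ⊆ B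
  | 0, i => (hig_Y c B 0 i (by norm_num)).trans (Y_sub hΦ)
  | 1, i => (hig_Y c B 1 i (by norm_num)).trans (Y_sub hΦ)
  | 2, i => (hig_Y c B 2 i (by norm_num)).trans (Y_sub hΦ)
  | 3, _ => subset_rfl
  | _ + 4, i => i.elim

theorem chr_B (c : PresCx Pr p) (hc : c.Good) (hΦ : Attach 3 c.Y B Φ) (n : ℕ) (i : cel Pr n)
    (x : Dk n) : chr c Φ n i x ∈ B := by
  apply hig_B c hΦ n i
  rw [(att c hc hΦ n i).eq]
  exact Or.inr ⟨x, rfl⟩

theorem closed_low [T2Space X] (c : PresCx Pr p) : ∀ n (i : cel Pr n), IsClosed (low c n i)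
  | 0, _ => isClosed_empty
  | 1, _ => CY.closed_Y1 c _
  | 2, _ => CY.closed_Y2 c _
  | 3, _ => CY.closed_Y2 c _
  | _ + 4, i => i.elim

/-- the characteristic maps, with their inverses -/
noncomputable def mp (c : PresCx Pr p) (hc : c.Good) (hΦ : Attach 3 c.Y B Φ) (n : ℕ)
    (i : cel Pr n) : PartialEquiv (Fin n → ℝ) B :=
  CY.pe (chr c Φ n i) (chr_B c hc hΦ n i) (att c hc hΦ n i)

theorem mp_disj_aux (c : PresCx Pr p) (hc : c.Good) (hΦ : Attach 3 c.Y B Φ) (n : ℕ)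
    (i : cel Pr n) (m : ℕ) (j : cel Pr m) (h : rnk Pr n i < rnk Pr m j) :
    Disjoint (mp c hc hΦ n i '' ball 0 1) (mp c hc hΦ m j '' ball 0 1) := by
  rw [Set.disjoint_left]
  rintro y ⟨v, hv, hvy⟩ ⟨w, hw, hwy⟩
  have h1 : (y : X) ∈ low c m j := by
    apply hig_low c B n i m j h
    rw [(att c hc hΦ n i).eq, ← hvy]
    exact Or.inr ⟨_, rfl⟩
  rw [← hwy] at h1
  change (CY.cm (chr c Φ m j) (chr_B c hc hΦ m j) w : X) ∈ low c m j at h1
  rw [CY.cm_of_mem _ _ w (ball_subset_closedBall hw)] at h1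
  exact (att c hc hΦ m j).int _ (mem_ball_zero_iff.1 hw) h1

theorem mp_disj (c : PresCx Pr p) (hc : c.Good) (hΦ : Attach 3 c.Y B Φ) :
    (univ : Set (Σ n, cel Pr n)).PairwiseDisjoint
      (fun ni => mp c hc hΦ ni.1 ni.2 '' ball 0 1) := by
  rintro ⟨n, i⟩ _ ⟨m, j⟩ _ hne
  rcases lt_trichotomy (rnk Pr n i) (rnk Pr m j) with h | h | h
  · exact mp_disj_aux c hc hΦ n i m j h
  · exact absurd (rnk_inj n i m j h) hne
  · exact (mp_disj_aux c hc hΦ m j n i h).symm

theorem mem_closedCell (c : PresCx Pr p) (hc : c.Good) (hΦ : Attach 3 c.Y B Φ) (n : ℕ)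
    (i : cel Pr n) (y : B) (h : (y : X) ∈ range (chr c Φ n i)) :
    y ∈ mp c hc hΦ n i '' closedBall 0 1 := by
  obtain ⟨x, hx⟩ := h
  refine ⟨x, x.2, Subtype.ext ?_⟩
  change (CY.cm (chr c Φ n i) (chr_B c hc hΦ n i) x : X) = y
  rw [CY.cm_of_mem _ _ (x : Fin n → ℝ) x.2, ← hx]

theorem mem_Y1_cells (c : PresCx Pr p) (hc : c.Good) (hΦ : Attach 3 c.Y B Φ) (y : B)
    (h : (y : X) ∈ c.Y1 Pr.gens) :
    y ∈ ⋃ (m < 2) (j : cel Pr m), mp c hc hΦ m j '' closedBall 0 1 := by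
  rcases h with h | h
  · simp only [mem_iUnion]
    exact ⟨0, by norm_num, (0 : Fin 1), mem_closedCell c hc hΦ 0 (0 : Fin 1) y
      ⟨clp 0 0, h.symm⟩⟩
  · simp only [mem_iUnion] at h
    obtain ⟨i, _, hi⟩ := h
    simp only [mem_iUnion]
    exact ⟨1, by norm_num, i, mem_closedCell c hc hΦ 1 i y hi⟩

theorem mem_Y_cells (c : PresCx Pr p) (hc : c.Good) (hΦ : Attach 3 c.Y B Φ) (y : B)
    (h : (y : X) ∈ c.Y) :
    y ∈ ⋃ (m < 3) (j : cel Pr m), mp c hc hΦ m j '' closedBall 0 1 := by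
  rcases h with h | h
  · have h1 := mem_Y1_cells c hc hΦ y h
    simp only [mem_iUnion] at h1 ⊢
    obtain ⟨m, hm, j, hj⟩ := h1
    exact ⟨m, by omega, j, hj⟩
  · simp only [mem_iUnion] at h ⊢
    obtain ⟨j, _, hj⟩ := h
    exact ⟨2, by norm_num, j, mem_closedCell c hc hΦ 2 j y hj⟩

theorem mp_mapsTo (hp : ∀ (g : G) y, p (g • y) = p y) (c : PresCx Pr p) (hc : c.Good)
    (hΦ : Attach 3 c.Y B Φ) :
    ∀ n (i : cel Pr n), MapsTo (mp c hc hΦ n i) (sphere 0 1)
      (⋃ (m < n) (j : cel Pr m), mp c hc hΦ m j '' closedBall 0 1)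
  | 0, _ => by
      intro v hv
      rw [mem_sphere_zero_iff_norm, Subsingleton.elim v 0, norm_zero] at hv
      exact absurd hv zero_ne_one
  | 1, i => by
      intro v hv
      have hv1 : ‖v‖ = 1 := mem_sphere_zero_iff_norm.1 hv
      have h2 : (mp c hc hΦ 1 i v : X) = p c.e := by
        change (CY.cm (chr c Φ 1 i) (chr_B c hc hΦ 1 i) v : X) = p c.e
        rw [CY.cm_of_mem _ _ v (sphere_subset_closedBall hv)]
        change p (c.a i (par (v 0))) = p c.e
        have h3 : |v 0| = 1 := by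
          rw [← hv1, ← Real.norm_eq_abs]
          refine le_antisymm (norm_le_pi_norm v 0) ?_
          rw [pi_norm_le_iff_of_nonneg (norm_nonneg _)]
          intro k
          rw [Subsingleton.elim k 0]
        rcases (abs_eq zero_le_one).1 h3 with h4 | h4
        · rw [h4, CY.par_one, Path.target, hp]
        · rw [h4, CY.par_zero, Path.source]
      simp only [mem_iUnion]
      exact ⟨0, by norm_num, (0 : Fin 1), mem_closedCell c hc hΦ 0 (0 : Fin 1) _
        ⟨clp 0 0, h2.symm⟩⟩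
  | 2, j => by
      intro v hv
      have hv1 : ‖v‖ = 1 := mem_sphere_zero_iff_norm.1 hv
      apply mem_Y1_cells
      change (CY.cm (chr c Φ 2 j) (chr_B c hc hΦ 2 j) v : X) ∈ c.Y1 Pr.gens
      rw [CY.cm_of_mem _ _ v (sphere_subset_closedBall hv)]
      change p (c.b j ⟨v, sphere_subset_closedBall hv⟩) ∈ c.Y1 Pr.gens
      obtain ⟨h3, h4⟩ := c.bdry j ⟨v, sphere_subset_closedBall hv⟩ hv1
      by_cases h5 : v 0 = 1
      · rw [h3 h5]
        exact CY.word_Y1 hp c _ _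
      · rw [h4 h5]
        exact Or.inl rfl
  | 3, j => by
      intro v hv
      have hv1 : ‖v‖ = 1 := mem_sphere_zero_iff_norm.1 hv
      apply mem_Y_cells
      change (CY.cm (chr c Φ 3 j) (chr_B c hc hΦ 3 j) v : X) ∈ c.Y
      rw [CY.cm_of_mem _ _ v (sphere_subset_closedBall hv)]
      exact hΦ.bdry _ hv1
  | _ + 4, i => i.elim

theorem mp_union (c : PresCx Pr p) (hc : c.Good) (hΦ : Attach 3 c.Y B Φ) :
    ⋃ (n : ℕ) (j : cel Pr n), mp c hc hΦ n j '' closedBall 0 1 = univ := by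
  refine eq_univ_of_forall fun y => ?_
  have hy : (y : X) ∈ c.Y ∪ range Φ := hΦ.eq ▸ y.2
  rcases hy with h | h
  · have h1 := mem_Y_cells c hc hΦ y h
    simp only [mem_iUnion] at h1 ⊢
    obtain ⟨m, _, j, hj⟩ := h1
    exact ⟨m, j, hj⟩
  · simp only [mem_iUnion]
    exact ⟨3, (0 : Fin 1), mem_closedCell c hc hΦ 3 (0 : Fin 1) y h⟩

theorem finite_cel : ∀ n, _root_.Finite (cel Pr n)
  | 0 => inferInstanceAs (_root_.Finite (Fin 1))
  | 1 => inferInstanceAs (_root_.Finite (Fin Pr.gens))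
  | 2 => inferInstanceAs (_root_.Finite (Fin Pr.rels))
  | 3 => inferInstanceAs (_root_.Finite (Fin 1))
  | _ + 4 => inferInstanceAs (_root_.Finite Empty)

theorem empty_cel : ∀ m > 3, IsEmpty (cel Pr m)
  | 0, h => absurd h (by norm_num)
  | 1, h => absurd h (by norm_num)
  | 2, h => absurd h (by norm_num)
  | 3, h => absurd h (by norm_num)
  | _ + 4, _ => inferInstanceAs (IsEmpty Empty)

theorem ev_cel : ∀ᶠ n in Filter.atTop, IsEmpty (cel Pr n) :=
  Filter.eventually_atTop.2 ⟨4, fun m hm => empty_cel m hm⟩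

theorem mp_cont (c : PresCx Pr p) (hc : c.Good) (hΦ : Attach 3 c.Y B Φ) (n : ℕ)
    (i : cel Pr n) : ContinuousOn (mp c hc hΦ n i) (closedBall 0 1) :=
  (CY.continuous_cm (chr c Φ n i) (chr_B c hc hΦ n i)).continuousOn

theorem mp_symm [T2Space X] (c : PresCx Pr p) (hc : c.Good) (hΦ : Attach 3 c.Y B Φ) (n : ℕ)
    (i : cel Pr n) : ContinuousOn (mp c hc hΦ n i).symm (mp c hc hΦ n i).target :=
  CY.pe_symm (closed_low c n i) (chr c Φ n i) (chr_B c hc hΦ n i) (att c hc hΦ n i)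

/-- the CW structure -/
@[reducible]
noncomputable def cw [T2Space X] (hp : ∀ (g : G) y, p (g • y) = p y) (c : PresCx Pr p)
    (hc : c.Good) (hΦ : Attach 3 c.Y B Φ) : CWComplex (univ : Set B) :=
  CWComplex.mkFinite (univ : Set B) (cel Pr) (mp c hc hΦ) ev_cel finite_cel (fun _ _ => rfl)
    (mp_cont c hc hΦ) (mp_symm c hc hΦ) (mp_disj c hc hΦ) (mp_mapsTo hp c hc hΦ)
    (mp_union c hc hΦ)

theorem cw_finite [T2Space X] (hp : ∀ (g : G) y, p (g • y) = p y) (c : PresCx Pr p)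
    (hc : c.Good) (hΦ : Attach 3 c.Y B Φ) :
    letI := cw hp c hc hΦ; CWComplex.Finite (univ : Set B) :=
  CWComplex.finite_mkFinite (univ : Set B) (cel Pr) (mp c hc hΦ) ev_cel finite_cel
    (fun _ _ => rfl) (mp_cont c hc hΦ) (mp_symm c hc hΦ) (mp_disj c hc hΦ)
    (mp_mapsTo hp c hc hΦ) (mp_union c hc hΦ)

theorem built3 (c : PresCx Pr p) (hc : c.Good) (hΦ : Attach 3 c.Y B Φ) : Built ∅ B :=
  Built.cell 3 Φ (CY.built2 c hc _ le_rfl) hΦ

theorem isPathConnected_B (c : PresCx Pr p) (hΦ : Attach 3 c.Y B Φ) : IsPathConnected B := by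
  rw [hΦ.eq]
  refine IsPathConnected.union (YP.isPathConnected_Y c) (isPathConnected_range Φ.continuous) ?_
  have hb : ‖((YP.mone 3 : Dk 3) : Fin 3 → ℝ)‖ = 1 := by
    change ‖(fun _ => -1 : Fin 3 → ℝ)‖ = 1
    rw [pi_norm_const, norm_neg, norm_one]
  exact ⟨Φ (YP.mone 3), hΦ.bdry _ hb, ⟨_, rfl⟩⟩

theorem isCompact_B (c : PresCx Pr p) (hΦ : Attach 3 c.Y B Φ) : IsCompact B := by
  rw [hΦ.eq]
  refine IsCompact.union ?_ (isCompact_range Φ.continuous)
  refine IsCompact.union (IsCompact.union isCompact_singleton ?_) ?_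
  · exact isCompact_iUnion fun i => isCompact_iUnion fun _ =>
      isCompact_range (p.comp (c.edge i)).continuous
  · exact isCompact_iUnion fun i => isCompact_iUnion fun _ =>
      isCompact_range (p.comp (c.b i)).continuous

end

/-- D2 -/
theorem d2 : SpecD2 := by
  intro G X E _ _ _ _ _ _ p hp Pr c hc B Φ hΦ
  have hp' : ∀ (g : G) y, p (g • y) = p y := fun g _ => hp.apply_eq_iff_mem_orbit.2 ⟨g, rfl⟩
  refine ⟨built3 c hc hΦ, isPathConnected_iff_pathConnectedSpace.1 (isPathConnected_B c hΦ),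
    isCompact_iff_compactSpace.1 (isCompact_B c hΦ), cw hp' c hc hΦ, cw_finite hp' c hc hΦ,
    ⟨Equiv.refl _⟩, ⟨Equiv.refl _⟩, ⟨Equiv.refl _⟩, ⟨Equiv.refl _⟩, fun m hm => empty_cel m hm⟩

end Vale.Agent.P246.Dis.H316
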