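import Vale.Agent.P246.Dis.H316.Spec3
import Vale.Agent.P246.T.YP

/-! # P246, disproof: simple connectivity after attaching cells of dimension at least two -/

namespace Vale.Agent.P246.Dis.H316

open Topology Metric Set Vale.Agent.P246.T

/-- a path with end points in `A` is homotopic to a path in `A` -/
theorem push_path {X : Type} [TopologicalSpace X] {n : ℕ} (hn : 2 ≤ n) {A B : Set X}
    {Φ : C(Dk n, X)} (h : CellData n Unit B A fun _ => Φ) (u v : B) (γ : Path u v)
    (hu : u.1 ∈ A) (hv : v.1 ∈ A) :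
    ∃ δ : Path u v, (∀ t, (δ t).1 ∈ A) ∧ δ.Homotopic γ := by
  obtain ⟨δ, hδ, he⟩ := YP.dec h A le_rfl (fun x hx => h.bdry () x hx)
    (fun u v a => ∃ δ : Path u v, (∀ t, (δ t).1 ∈ A) ∧ Path.Homotopic.Quotient.mk δ = a)
    (by
      rintro u v w _ _ _ _ _ ⟨δ, hδ, rfl⟩ ⟨δ', hδ', rfl⟩
      refine ⟨δ.trans δ', fun t => ?_, Path.Homotopic.Quotient.mk_trans _ _⟩
      rw [Path.trans_apply]
      split_ifs
      · exact hδ _
      · exact hδ' _)
    (fun u v δ _ _ hδ => ⟨δ, hδ, rfl⟩)
    (by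
      intro x y β hx hy
      have hr : 1 < Module.rank ℝ (Fin n → ℝ) := by
        rw [rank_fin_fun]
        exact_mod_cast hn
      have hj : JoinedIn (sphere (0 : Fin n → ℝ) 1) x y :=
        (isPathConnected_sphere hr 0 zero_le_one).joinedIn _ (by simpa using hx) _
          (by simpa using hy)
      have hn : ∀ t, ‖hj.somePath t‖ = 1 := fun t => by
        have := hj.somePath_mem t
        simpa using this
      have hm : ∀ t, hj.somePath t ∈ closedBall (0 : Fin n → ℝ) 1 := fun t => by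
        rw [mem_closedBall_zero_iff, hn]
      let β' : Path x y :=
        { toFun := fun t => ⟨hj.somePath t, hm t⟩
          continuous_toFun := hj.somePath.continuous.subtype_mk hm
          source' := Subtype.ext hj.somePath.source
          target' := Subtype.ext hj.somePath.target }
      refine ⟨β'.map (YP.phB h).continuous, fun t => h.bdry () _ (hn t), ?_⟩
      rw [Path.Homotopic.Quotient.mk_map, Path.Homotopic.Quotient.mk_map]
      congr 1
      exact Subsingleton.elim _ _) u v γ hu hv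
  exact ⟨δ, hδ, Path.Homotopic.Quotient.eq.1 he⟩

section

variable {G X E : Type} [Group G] [TopologicalSpace X]
  [TopologicalSpace E] [MulAction G E] [ContinuousConstSMul G E] {p : C(E, X)}

/-- the restricted covering -/
def rq (p : C(E, X)) (B : Set X) : C((p ⁻¹' B : Set E), B) :=
  ⟨B.restrictPreimage p, p.continuous.restrictPreimage⟩

theorem rq_cov (hp : IsQuotientCoveringMap p G) (B : Set X) : IsCoveringMap (rq p B) := by
  have h : IsCoveringMapOn p B := (isCoveringMap_iff_isCoveringMapOn_univ.1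
    hp.isCoveringMap).mono (subset_univ _)
  exact h.isCoveringMap_restrictPreimage

theorem mem_smul (hp : IsQuotientCoveringMap p G) (B : Set X) (g : G) {y : E} (hy : p y ∈ B) :
    p (g • y) ∈ B := by
  rw [hp.map_smul]; exact hy

/-- every point over the cell is joined to a point over `A` -/
theorem joined_A (hp : IsQuotientCoveringMap p G) {n : ℕ} (hn : 1 ≤ n) {A B : Set X}
    {Φ : C(Dk n, X)} (h : Attach n A B Φ) (Ψ : C(Dk n, E)) (hΨ : ∀ x, p (Ψ x) = Φ x)
    (y : (p ⁻¹' B : Set E)) : ∃ z : (p ⁻¹' B : Set E), p z.1 ∈ A ∧ Joined y z := by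
  have hy : p y.1 ∈ A ∪ range Φ := h.eq ▸ y.2
  rcases hy with hy | ⟨x, hx⟩
  · exact ⟨y, hy, Joined.refl y⟩
  · rw [← hΨ x] at hx
    obtain ⟨g, hg⟩ := hp.apply_eq_iff_mem_orbit.1 hx.symm
    -- hg : g • Ψ x = y
    have hB : ∀ w : Dk n, p (g • Ψ w) ∈ B := by
      intro w
      rw [hp.map_smul, hΨ, h.eq]
      exact Or.inr ⟨w, rfl⟩
    let b : Dk n := ⟨fun _ => 1, by
      rw [mem_closedBall_zero_iff, pi_norm_le_iff_of_nonneg zero_le_one]
      intro i
      simp⟩
    have hb : ‖(b : Fin n → ℝ)‖ = 1 := by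
      have : Nonempty (Fin n) := ⟨⟨0, hn⟩⟩
      change ‖(fun _ => 1 : Fin n → ℝ)‖ = 1
      rw [pi_norm_const, norm_one]
    refine ⟨⟨g • Ψ b, hB b⟩, ?_, ?_⟩
    · change p (g • Ψ b) ∈ A
      rw [hp.map_smul, hΨ]
      exact h.bdry b hb
    · have hj : Joined x b := PathConnectedSpace.joined x b
      obtain ⟨γ⟩ := hj
      have hc : Continuous fun w : Dk n => (⟨g • Ψ w, hB w⟩ : (p ⁻¹' B : Set E)) :=
        ((Ψ.continuous.const_smul g)).subtype_mk _
      have h1 : Joined (⟨g • Ψ x, hB x⟩ : (p ⁻¹' B : Set E)) ⟨g • Ψ b, hB b⟩ :=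
        ⟨γ.map hc⟩
      have h2 : y = ⟨g • Ψ x, hB x⟩ := Subtype.ext hg.symm
      rw [h2]
      exact h1

theorem sc_attach [T2Space X] (hp : IsQuotientCoveringMap p G) {n : ℕ} (hn : 2 ≤ n)
    {A B : Set X} {Φ : C(Dk n, X)} (Ψ : C(Dk n, E)) (hA : IsClosed A) (h : Attach n A B Φ)
    (hΨ : ∀ x, p (Ψ x) = Φ x) (hs : SimplyConnectedSpace (p ⁻¹' A : Set E)) :
    SimplyConnectedSpace (p ⁻¹' B : Set E) := by
  have hcd : CellData n Unit B A (fun _ => Φ) := CC.main1 X n A B Φ hA h
  have hAB : A ⊆ B := hcd.sub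
  have hcov := rq_cov hp B
  let inc : C((p ⁻¹' A : Set E), (p ⁻¹' B : Set E)) :=
    ⟨Set.inclusion (preimage_mono hAB), continuous_inclusion _⟩
  have hjA : ∀ y z : (p ⁻¹' B : Set E), p y.1 ∈ A → p z.1 ∈ A → Joined y z := by
    intro y z hy hz
    obtain ⟨γ⟩ := PathConnectedSpace.joined (⟨y.1, hy⟩ : (p ⁻¹' A : Set E)) ⟨z.1, hz⟩
    exact ⟨γ.map inc.continuous⟩
  obtain ⟨a0⟩ : Nonempty (p ⁻¹' A : Set E) := inferInstance
  have hPC : PathConnectedSpace (p ⁻¹' B : Set E) := by
    refine ⟨⟨inc a0⟩, fun y z => ?_⟩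
    obtain ⟨y', hy', jy⟩ := joined_A hp (by omega) h Ψ hΨ y
    obtain ⟨z', hz', jz⟩ := joined_A hp (by omega) h Ψ hΨ z
    exact (jy.trans (hjA y' z' hy' hz')).trans jz.symm
  rw [simply_connected_iff_loops_nullhomotopic]
  refine ⟨hPC, ?_⟩
  -- loops with base point over `A`
  have key : ∀ (y : (p ⁻¹' B : Set E)), p y.1 ∈ A → ∀ γ : Path y y,
      γ.Homotopic (Path.refl y) := by
    intro y hy γ
    let q := rq p B
    obtain ⟨δ, hδA, hδ⟩ := push_path hn hcd (q y) (q y) (γ.map q.continuous) hy hy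
    have hδ' : (δ : C(I, B)).HomotopicRel (γ.map q.continuous : C(I, B)) {0, 1} := hδ
    have e0 : (δ : C(I, B)) 0 = q y := δ.source
    have e1 : (γ.map q.continuous : C(I, B)) 0 = q y := (γ.map q.continuous).source
    have h1 := hcov.liftPath_apply_one_eq_of_homotopicRel hδ' y e0 e1
    have h2 : (γ : C(I, (p ⁻¹' B : Set E))) = hcov.liftPath (γ.map q.continuous) y e1 :=
      (hcov.eq_liftPath_iff' e1).2 ⟨rfl, γ.source⟩
    rw [← h2] at h1
    -- the lift of `δ` is a loop over `A`
    let η : Path y y :=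
      { toFun := hcov.liftPath δ y e0
        continuous_toFun := (hcov.liftPath δ y e0).continuous
        source' := hcov.liftPath_zero δ y e0
        target' := h1.trans γ.target }
    have hη : ∀ t, q (η t) = δ t := fun t => congrFun (hcov.liftPath_lifts δ y e0) t
    have hηA : ∀ t, p (η t).1 ∈ A := fun t => by
      have h3 : p (η t).1 = (δ t).1 := congrArg Subtype.val (hη t)
      rw [h3]
      exact hδA t
    let ηA : Path (⟨y.1, hy⟩ : (p ⁻¹' A : Set E)) ⟨y.1, hy⟩ :=
      { toFun := fun t => ⟨(η t).1, hηA t⟩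
        continuous_toFun := (continuous_subtype_val.comp η.continuous).subtype_mk _
        source' := Subtype.ext (by
          change (η 0).1 = y.1
          rw [η.source])
        target' := Subtype.ext (by
          change (η 1).1 = y.1
          rw [η.target]) }
    have h4 : ηA.Homotopic (Path.refl _) := SimplyConnectedSpace.paths_homotopic _ _
    have h5 : η.Homotopic (Path.refl y) := YP.hom_of_eq (h4.map inc) (fun _ => rfl) (fun _ => rfl)
    have h6 : (Path.Homotopic.Quotient.mk γ).map q = (Path.Homotopic.Quotient.mk η).map q := by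
      refine Path.Homotopic.Quotient.eq.2 ?_
      exact YP.hom_of_eq hδ.symm (fun _ => rfl) hη
    have h7 : γ.Homotopic η :=
      Path.Homotopic.Quotient.eq.1 (hcov.injective_path_homotopic_map _ _ h6)
    exact h7.trans h5
  intro y γ
  obtain ⟨z, hz, ⟨δ⟩⟩ := joined_A hp (by omega) h Ψ hΨ y
  have h1 := key z hz ((δ.symm.trans γ).trans δ)
  have h0 : Path.Homotopic.Quotient.mk ((δ.symm.trans γ).trans δ) =
      Path.Homotopic.Quotient.mk (Path.refl _) := Path.Homotopic.Quotient.eq.2 h1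
  apply Path.Homotopic.Quotient.eq.1
  have h2 : Path.Homotopic.Quotient.mk γ = ((Path.Homotopic.Quotient.mk δ).trans
      (((Path.Homotopic.Quotient.mk δ).symm.trans (Path.Homotopic.Quotient.mk γ)).trans
        (Path.Homotopic.Quotient.mk δ))).trans (Path.Homotopic.Quotient.mk δ).symm := by
    simp
    rw [← Path.Homotopic.Quotient.trans_assoc]
    simp
  rw [h2]
  have h3 : ((Path.Homotopic.Quotient.mk δ).symm.trans (Path.Homotopic.Quotient.mk γ)).trans
        (Path.Homotopic.Quotient.mk δ) = Path.Homotopic.Quotient.refl _ := h0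
  rw [h3]
  simp

end

/-- D3 -/
theorem d3 : SpecD3 := by
  intro G X E _ _ _ _ _ _ p hp n hn A B Φ Ψ hA h hΨ hs
  exact sc_attach hp hn Ψ hA h hΨ hs

end Vale.Agent.P246.Dis.H316
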