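import Vale.Agent.P246.Dis.H316.Att3
import Vale.Agent.P246.T.Asm

/-! # P246, disproof: transfer of the chain equation of the 3-cell -/

namespace Vale.Agent.P246.Dis.H316

open Topology Metric Set Vale.Agent.P246.T

/-- chains in `A` only depend on the map on `A` -/
theorem push_congr {M N : Type} [TopologicalSpace M] [TopologicalSpace N] {f g : C(M, N)}
    {A : Set M} (h : ∀ x ∈ A, f x = g x) {n : ℕ} {c : Ch n M} (hc : c ∈ Con A n) :
    push f n c = push g n c := by
  rw [T.Con, Finsupp.mem_supported] at hc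
  have h1 : ∀ a : Ch n M, push f n a = a.sum fun σ m => Finsupp.single (f.comp σ) m := fun a => by
    rw [push, Finsupp.lmapDomain_apply, Finsupp.mapDomain]
  have h2 : ∀ a : Ch n M, push g n a = a.sum fun σ m => Finsupp.single (g.comp σ) m := fun a => by
    rw [push, Finsupp.lmapDomain_apply, Finsupp.mapDomain]
  rw [h1, h2]
  refine Finset.sum_congr rfl fun σ hσ => ?_
  have h3 : f.comp σ = g.comp σ := by
    ext x
    exact h _ (hc hσ x)
  simp only [h3]

section

variable {G X E : Type} [Group G] [TopologicalSpace X]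
  [TopologicalSpace E] [MulAction G E] [ContinuousConstSMul G E] {p : C(E, X)}
  {Pr : FinPresentation G}

theorem push_zface (W : WordCor) (c : PresCx Pr p) (c' : PresCx Pr (pW G 0 2 p))
    (he : c'.e = ((c.e, 0) : E × WW 0 2)) (ha : ∀ i t, c'.a i t = ((c.a i t, 0) : E × WW 0 2))
    (hb : ∀ j z, c'.b j z = ((c.b j z, 0) : E × WW 0 2)) (j : Fin Pr.rels) :
    push (j0 G E) 2 (c.zface W j) = c'.zface W j := by
  rw [PresCx.zface, PresCx.zface, map_add, map_add]
  congr 1
  · congr 1
    · rw [← push_comp]
      congr 1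
      congr 1
      ext z
      exact (hb j z).symm
    · rw [ksx, push_single, ksx]
      congr 1
      ext z
      exact he.symm
  · exact W.nat G E _ (j0 G E) (fun g y => j0_smul g y) _ _ _ _ _ _ he (fun i t => ha i t) _

end

/-- D1b -/
theorem d1b : SpecD1b := by
  intro W G X E _ _ _ _ _ p Pr c c' he ha hb δ Ψ hΨ ζ hζ β t ht h
  refine ⟨push (j0 G E) 3 t, push_mem ?_ ht, ?_⟩
  · intro y hy
    have h1 : ∀ (y : X), y ∈ c.Y → ((y, 0) : X × WW 0 2) ∈ c'.Y := by
      intro y hy
      rcases hy with (hy | hy) | hy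
      · left; left
        rw [mem_singleton_iff] at hy ⊢
        rw [hy, he]
        rfl
      · left; right
        simp only [mem_iUnion] at hy ⊢
        obtain ⟨i, hi, z, hz⟩ := hy
        refine ⟨i, hi, z, ?_⟩
        rw [← hz]
        exact congrArg (pW G 0 2 p) (ha i _)
      · right
        simp only [mem_iUnion] at hy ⊢
        obtain ⟨i, hi, z, hz⟩ := hy
        refine ⟨i, hi, z, ?_⟩
        rw [← hz]
        exact congrArg (pW G 0 2 p) (hb i _)
    exact h1 _ hy
  · have h2 : push Ψ 2 (bd 2 ζ) = push ((j0 G E).comp δ) 2 (bd 2 ζ) :=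
      push_congr (A := bdk 3) (fun z hz => hΨ z hz) hζ
    rw [push_bd, h2, push_comp, ← push_bd, h, map_add, push_bd,
      push_lmap (j0 G E) (fun g y => j0_smul g y)]
    have h3 : (fun i => SC.mk G (push (j0 G E) 2 (SC.mk G (c.zface W i)).un)) =
        fun j => SC.mk G (c'.zface W j) := by
      funext j
      rw [SC.un_mk]
      exact congrArg (SC.mk G) (push_zface W c c' he ha hb j)
    rw [h3]

end Vale.Agent.P246.Dis.H316
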