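import Vale.Agent.P246.T.Spec2

/-! # P246, disproof: geometry of one 3-cell (statements; all of them are proved in this folder) -/

namespace Vale.Agent.P246.Dis.H316

open Topology Metric Set Vale.Agent.P246.T

/-- D1. A 3-cell whose boundary is given by `δ` can be attached (inside `X × WW 0 2`) to the
presentation complex `c'`, which is the copy of `c` in `X × {0}`. -/
def SpecD1 : Prop := ∀ (G X E : Type) [Group G] [TopologicalSpace X]
  [TopologicalSpace E] [MulAction G E] [ContinuousConstSMul G E] (p : C(E, X))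
  (Pr : FinPresentation G) (c : PresCx Pr p), c.Good → ∀ (δ : C(Dk 3, E)),
  (∀ z : Dk 3, ‖(z : Fin 3 → ℝ)‖ = 1 → p (δ z) ∈ c.Y) →
  ∃ (c' : PresCx Pr (pW G 0 2 p)) (Ψ : C(Dk 3, EW G E 0 2)), c'.Good ∧
    c'.e = ((c.e, 0) : E × WW 0 2) ∧ (∀ i t, c'.a i t = ((c.a i t, 0) : E × WW 0 2)) ∧
    (∀ j z, c'.b j z = ((c.b j z, 0) : E × WW 0 2)) ∧ (∀ z, (Ψ z).1 = δ z) ∧
    (∀ z : Dk 3, ‖(z : Fin 3 → ℝ)‖ = 1 → Ψ z = ((δ z, 0) : E × WW 0 2)) ∧
    Attach 3 c'.Y (c'.Y ∪ range ((pW G 0 2 p).comp Ψ)) ((pW G 0 2 p).comp Ψ)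

/-- D1b. Transfer of the chain equation from `c` to `c'`. -/
def SpecD1b : Prop := ∀ (W : WordCor) (G X E : Type) [Group G] [TopologicalSpace X]
  [TopologicalSpace E] [MulAction G E] [ContinuousConstSMul G E] (p : C(E, X))
  (Pr : FinPresentation G) (c : PresCx Pr p) (c' : PresCx Pr (pW G 0 2 p)),
  c'.e = ((c.e, 0) : E × WW 0 2) → (∀ i t, c'.a i t = ((c.a i t, 0) : E × WW 0 2)) →
  (∀ j z, c'.b j z = ((c.b j z, 0) : E × WW 0 2)) →
  ∀ (δ : C(Dk 3, E)) (Ψ : C(Dk 3, EW G E 0 2)),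
  (∀ z : Dk 3, ‖(z : Fin 3 → ℝ)‖ = 1 → Ψ z = ((δ z, 0) : E × WW 0 2)) →
  ∀ ζ : Ch 3 (Dk 3), bd 2 ζ ∈ Con (bdk 3) 2 → ∀ (β : Fin Pr.rels → ZG G) (t : Ch 3 E),
  t ∈ Con (p ⁻¹' c.Y) 3 →
  bd 2 (push δ 3 ζ) = (lmap (fun j => SC.mk G (c.zface W j)) β).un + bd 2 t →
  ∃ t' ∈ Con (pW G 0 2 p ⁻¹' c'.Y) 3,
    bd 2 (push Ψ 3 ζ) = (lmap (fun j => SC.mk G (c'.zface W j)) β).un + bd 2 t'

/-- D2. The CW structure of a presentation complex with one 3-cell. -/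
def SpecD2 : Prop := ∀ (G X E : Type) [Group G] [TopologicalSpace X] [T2Space X]
  [TopologicalSpace E] [MulAction G E] [ContinuousConstSMul G E] (p : C(E, X)),
  IsQuotientCoveringMap p G → ∀ (Pr : FinPresentation G) (c : PresCx Pr p), c.Good →
  ∀ (B : Set X) (Φ : C(Dk 3, X)), Attach 3 c.Y B Φ →
  Built ∅ B ∧ PathConnectedSpace B ∧ CompactSpace B ∧
    ∃ _ : CWComplex (univ : Set B), CWComplex.Finite (univ : Set B) ∧
    Nonempty (RelCWComplex.cell (univ : Set B) 0 ≃ Fin 1) ∧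
    Nonempty (RelCWComplex.cell (univ : Set B) 1 ≃ Fin Pr.gens) ∧
    Nonempty (RelCWComplex.cell (univ : Set B) 2 ≃ Fin Pr.rels) ∧
    Nonempty (RelCWComplex.cell (univ : Set B) 3 ≃ Fin 1) ∧
    ∀ m > 3, IsEmpty (RelCWComplex.cell (univ : Set B) m)

/-- D3. Attaching cells of dimension at least 2 to a simply connected covering. -/
def SpecD3 : Prop := ∀ (G X E : Type) [Group G] [TopologicalSpace X] [T2Space X]
  [TopologicalSpace E] [MulAction G E] [ContinuousConstSMul G E] (p : C(E, X)),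
  IsQuotientCoveringMap p G → ∀ (n : ℕ), 2 ≤ n → ∀ (A B : Set X) (Φ : C(Dk n, X))
  (Ψ : C(Dk n, E)), IsClosed A → Attach n A B Φ → (∀ x, p (Ψ x) = Φ x) →
  SimplyConnectedSpace (p ⁻¹' A) → SimplyConnectedSpace (p ⁻¹' B)

end Vale.Agent.P246.Dis.H316
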